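import Vale.Agent.P225.MathlibUsed

open Filter Topology
open scoped ContDiff

namespace Vale.Agent.P225

/-- `ℝⁿ` with its standard inner product. -/
abbrev Rn (n : ℕ) : Type := EuclideanSpace ℝ (Fin n)

/-- A smooth Riemannian metric on the manifold `ℝⁿ`, given by its matrix `G`. -/
structure RMetric (n : ℕ) where
  G : Rn n → Matrix (Fin n) (Fin n) ℝ
  smooth : ∀ i j, ContDiff ℝ ∞ (fun x => G x i j)
  pos : ∀ x, (G x).PosDef

namespace RMetric

variable {n : ℕ} (g : RMetric n)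

/-- The quadratic form `g_x(v,v)`. -/
noncomputable def quad (x v : Rn n) : ℝ := ∑ i, ∑ j, g.G x i j * v i * v j

/-- The `i`-th coordinate derivative. -/
noncomputable def pd {n : ℕ} (i : Fin n) (f : Rn n → ℝ) (x : Rn n) : ℝ :=
  fderiv ℝ f x (EuclideanSpace.single i 1)

/-- The volume density `√(det G)`. -/
noncomputable def dens (x : Rn n) : ℝ := √(g.G x).det

/-- The Laplace-Beltrami operator
`Δ u = (det G)^(-1/2) ∑ᵢ ∂ᵢ ((det G)^(1/2) ∑ⱼ Gⁱʲ ∂ⱼ u)`. -/
noncomputable def lap (u : Rn n → ℝ) (x : Rn n) : ℝ :=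
  (g.dens x)⁻¹ * ∑ i, pd i (fun y => g.dens y * ∑ j, (g.G y)⁻¹ i j * pd j u y) x

/-- The length of the curve `c` on `[0,1]`. -/
noncomputable def length (c : ℝ → Rn n) : ℝ := ∫ t in (0 : ℝ)..1, √(g.quad (c t) (deriv c t))

/-- The Riemannian distance: the infimum of the lengths of `C¹` curves. -/
noncomputable def dist (x y : Rn n) : ℝ :=
  sInf {L : ℝ | ∃ c : ℝ → Rn n, ContDiff ℝ 1 c ∧ c 0 = x ∧ c 1 = y ∧ L = g.length c}

/-- The space `H_d` of harmonic functions of growth of order at most `d`. -/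
def harm (d : ℝ) : Set (Rn n → ℝ) :=
  {u | ContDiff ℝ ∞ u ∧ (∀ x, g.lap u x = 0) ∧ ∃ C : ℝ, ∀ x, |u x| ≤ C * (1 + g.dist 0 x) ^ d}

end RMetric

end Vale.Agent.P225
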