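import Vale.Agent.P225.Defs

/-!
Completeness and Ricci curvature of a smooth Riemannian metric on `ℝⁿ`.
-/

open Filter Topology

namespace Vale.Agent.P225

namespace RMetric

variable {n : ℕ}

/-- The Christoffel symbol
`Γᵏᵢⱼ = (1/2) ∑ₗ Gᵏˡ (∂ᵢ Gⱼₗ + ∂ⱼ Gᵢₗ - ∂ₗ Gᵢⱼ)` of the metric with matrix `G`. -/
noncomputable def christoffel (G : Rn n → Matrix (Fin n) (Fin n) ℝ) (k i j : Fin n) (x : Rn n) :
    ℝ :=
  (1 / 2) * ∑ l, (G x)⁻¹ k l * (pd i (fun y => G y j l) x + pd j (fun y => G y i l) x -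
    pd l (fun y => G y i j) x)

/-- The Ricci tensor
`Rᵢⱼ = ∑ₖ (∂ₖ Γᵏᵢⱼ - ∂ⱼ Γᵏᵢₖ + ∑ₗ (Γᵏₖₗ Γˡᵢⱼ - Γᵏⱼₗ Γˡᵢₖ))`. -/
noncomputable def ricci (G : Rn n → Matrix (Fin n) (Fin n) ℝ) (i j : Fin n) (x : Rn n) : ℝ :=
  ∑ k, (pd k (christoffel G k i j) x - pd j (christoffel G k i k) x +
    ∑ l, (christoffel G k k l x * christoffel G l i j x -
      christoffel G k j l x * christoffel G l i k x))

/-- Nonnegative Ricci curvature: `Ric_x(v,v) ≥ 0` for all `x` and `v`. -/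
def RicciNonneg (g : RMetric n) : Prop :=
  ∀ x v : Rn n, 0 ≤ ∑ i, ∑ j, ricci g.G i j x * v i * v j

/-- Completeness: every Cauchy sequence for the Riemannian distance converges. -/
def Complete (g : RMetric n) : Prop :=
  ∀ u : ℕ → Rn n, (∀ ε > 0, ∃ N, ∀ p ≥ N, ∀ q ≥ N, g.dist (u p) (u q) < ε) →
    ∃ x, ∀ ε > 0, ∃ N, ∀ p ≥ N, g.dist (u p) x < ε

end RMetric

end Vale.Agent.P225
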