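import Vale.Agent.P225.Defs

open MeasureTheory
open scoped ContDiff

namespace Vale.Agent.P225

/-- The class `C¹`. -/
def C1 {n : ℕ} (f : Rn n → ℝ) : Prop := ContDiff ℝ 1 f

/-- The integral over the unit sphere, `∫_S f = n ∫_B f(x/|x|) dx`. -/
noncomputable def sphInt {n : ℕ} (f : Rn n → ℝ) : ℝ :=
  n * ∫ x in {x : Fin n → ℝ | ∑ i, x i ^ 2 < 1}, f (‖WithLp.toLp 2 x‖⁻¹ • WithLp.toLp 2 x)

/-- The quadratic form of a matrix. -/
noncomputable def qf {n : ℕ} (A : Matrix (Fin n) (Fin n) ℝ) (v : Fin n → ℝ) : ℝ :=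
  ∑ i, ∑ j, A i j * v i * v j

/-- The vector space of functions `V` has dimension at most `N`. -/
def DimLE {n : ℕ} (V : Set (Rn n → ℝ)) (N : ℕ) : Prop :=
  ∀ f : Fin (N + 1) → Rn n → ℝ, (∀ i, f i ∈ V) →
    ∃ c : Fin (N + 1) → ℝ, c ≠ 0 ∧ ∀ x, ∑ i, c i * f i x = 0

/-- A `C¹` Riemannian metric `h` on the unit sphere of `ℝⁿ`. It is given by the matrix
`H θ` of `dr² + h` at the points `θ` of the unit sphere. -/
structure Section (n : ℕ) where
  H : Rn n → Matrix (Fin n) (Fin n) ℝ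
  diff : ∀ i j, C1 (fun x => H x i j)
  pos : ∀ θ, ‖θ‖ = 1 → (H θ).PosDef
  radial : ∀ θ, ‖θ‖ = 1 → ∀ i, ∑ j, H θ i j * θ j = θ i

namespace Section

variable {n : ℕ} (X : Section n)

/-- The density of the volume measure of `h` with respect to the surface measure. -/
noncomputable def dens (θ : Rn n) : ℝ := √(X.H θ).det

/-- The Euclidean tangential gradient of `f` at the point `θ` of the unit sphere. -/
noncomputable def tgrad {n : ℕ} (f : Rn n → ℝ) (θ : Rn n) (i : Fin n) : ℝ :=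
  RMetric.pd i f θ - (∑ k, θ k * RMetric.pd k f θ) * θ i

/-- `∫ f²` over the sphere with respect to the volume measure of `h`. -/
noncomputable def mass (f : Rn n → ℝ) : ℝ := sphInt fun θ => X.dens θ * f θ ^ 2

/-- `∫ |∇f|²` over the sphere with respect to `h`. -/
noncomputable def energy (f : Rn n → ℝ) : ℝ :=
  sphInt fun θ => X.dens θ * qf (X.H θ)⁻¹ (tgrad f θ)

/-- Among the eigenvalues `0 = λ₀ < λ₁ ≤ λ₂ ≤ …` of the Laplacian of `h` we have `μ ≤ λ_N`:
every family of `N + 1` functions has a nontrivial combination with Rayleigh quotient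
at least `μ`. -/
def EigenvalueGE (N : ℕ) (μ : ℝ) : Prop :=
  ∀ f : Fin (N + 1) → Rn n → ℝ, (∀ i, C1 (f i)) →
    ∃ c : Fin (N + 1) → ℝ, c ≠ 0 ∧
      μ * X.mass (fun x => ∑ i, c i * f i x) ≤ X.energy (fun x => ∑ i, c i * f i x)

/-- The round sphere dominates `h`: up to an error `η`, there is a `C¹` map `Φ` from the round
sphere to the sphere with the metric `h` which multiplies lengths by at most `τ` and the
volume by a number between `b` and `β`, where `β τ² ≤ b`. For `τ = 1` this says that `Φ`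
preserves the volume up to a constant factor and does not increase lengths. -/
def Dominated : Prop :=
  ∀ η > 0, ∃ (Φ : Rn n → Rn n) (τ b β : ℝ), 0 < b ∧ b ≤ β ∧ β * τ ^ 2 ≤ (1 + η) * b ∧
    (∀ k, C1 (fun x => Φ x k)) ∧
    (∀ x, ‖x‖ = 1 → ‖Φ x‖ = 1 ∧ ∀ v : Fin n → ℝ, ∑ i, v i * x i = 0 →
      qf (X.H (Φ x)) (fun k => ∑ i, v i * RMetric.pd i (fun y => Φ y k) x) ≤
        τ ^ 2 * ∑ i, v i ^ 2) ∧
    ∀ φ : Rn n → ℝ, Continuous φ → (∀ x, 0 ≤ φ x) →
      b * sphInt (fun x => φ (Φ x)) ≤ sphInt (fun x => φ x * X.dens x) ∧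
      sphInt (fun x => φ x * X.dens x) ≤ β * sphInt (fun x => φ (Φ x))

end Section

/-- The deviation of `g` from the metric `dr² + r² h` of the cone over `h`. -/
noncomputable def dev {n : ℕ} (g : RMetric n) (X : Section n) (i j : Fin n) (x : Rn n) : ℝ :=
  g.G x i j - X.H (‖x‖⁻¹ • x) i j

/-- `g` is asymptotic to the cone over `h` in `C¹` with some rate `r^(-ε)`. -/
def AsymptoticTo {n : ℕ} (g : RMetric n) (X : Section n) : Prop :=
  ∃ R C ε : ℝ, 0 < ε ∧ ∀ x, R ≤ ‖x‖ → ∀ i j, |dev g X i j x| ≤ C * ‖x‖ ^ (-ε) ∧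
    ∀ k, ‖x‖ * |RMetric.pd k (dev g X i j) x| ≤ C * ‖x‖ ^ (-ε)

end Vale.Agent.P225
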