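import Mathlib.Algebra.GroupWithZero.Action.Pointwise.Finset
import Mathlib.Algebra.MvPolynomial.Funext
import Mathlib.Algebra.Order.Archimedean.Real.Hom
import Mathlib.Algebra.Order.Chebyshev
import Mathlib.Algebra.Order.Interval.Basic
import Mathlib.Algebra.Ring.Action.Pointwise.Finset
import Mathlib.Algebra.Ring.IsFormallyReal
import Mathlib.Analysis.Calculus.BumpFunction.Normed
import Mathlib.Analysis.Calculus.FDeriv.Symmetric
import Mathlib.Analysis.Calculus.LineDeriv.IntegrationByParts
import Mathlib.Analysis.Complex.ExponentialBounds
import Mathlib.Analysis.Complex.Polynomial.Basic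
import Mathlib.Analysis.Distribution.AEEqOfIntegralContDiff
import Mathlib.Analysis.Matrix.Order
import Mathlib.Analysis.Normed.Algebra.MatrixExponential
import Mathlib.Analysis.ODE.ExistUnique
import Mathlib.Analysis.Real.Pi.Bounds
import Mathlib.Analysis.SumIntegralComparisons
import Mathlib.Combinatorics.SimpleGraph.AdjMatrix
import Mathlib.Data.Finite.Vector
import Mathlib.Data.Finset.DenselyOrdered
import Mathlib.Data.Int.Star
import Mathlib.FieldTheory.Finite.Polynomial
import Mathlib.LinearAlgebra.Matrix.FiniteDimensional
import Mathlib.MeasureTheory.Constructions.HaarToSphere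
import Mathlib.MeasureTheory.Measure.RegularityCompacts
import Mathlib.Order.CompletePartialOrder
import Mathlib.RingTheory.Derivation.Lie
import Mathlib.RingTheory.Etale.Weakly
import Mathlib.RingTheory.Flat.TorsionFree
import Mathlib.RingTheory.Henselian
import Mathlib.RingTheory.MvPolynomial.EulerIdentity
import Mathlib.RingTheory.MvPolynomial.IrreducibleQuadratic
import Mathlib.RingTheory.RegularLocalRing.Defs
import Mathlib.RingTheory.SimpleRing.Principal
import Mathlib.RingTheory.TotallySplit
import Mathlib.Tactic
import Mathlib.Topology.Algebra.MvPolynomial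
import Mathlib.Topology.UniformSpace.Uniformizable

/-! The part of Mathlib that the development of this folder uses. -/
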